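import Crest.Agent.R165.B1.A

/-! # R165 block B1/B: the Laplacian is a local combination of the Dirac operator -/

set_option autoImplicit false
noncomputable section
open Classical

namespace Crest.Agent.R165

theorem lap_eq_0 (s : Fn) (a b : ℤ) :
    s ((a + 1, b), 0) + s ((a - 1, b), 0) + s ((a, b + 1), 0) + s ((a, b - 1), 0) - 4 * s ((a, b), 0) =
      (1 + (1/2) * tc) * opA wPl s ((a, b - 1), 0) +
      (-1 + (-1/2) * tc) * opA wPl s ((a, b - 1), 1) +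
      (5/2 + (1) * tc) * opA wPl s ((a, b), 1) +
      (-2 + (-1) * tc) * opA wPl s ((a, b), 2) +
      (5/2 + (1) * tc) * opA wPl s ((a, b), 3) +
      (-1 + (-1/2) * tc) * opA wPl s ((a, b + 1), 0) +
      (-1 + (-1/2) * tc) * opA wPl s ((a, b + 1), 3) +
      (-1/2 + (0) * tc) * opA wPl s ((a + 1, b - 1), 1) +
      (1/2 + (0) * tc) * opA wPl s ((a + 1, b - 1), 2) +
      (-1 + (-1/2) * tc) * opA wPl s ((a + 1, b), 1) +
      (1 + (1) * tc) * opA wPl s ((a + 1, b), 2) +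
      (-1 + (-1/2) * tc) * opA wPl s ((a + 1, b), 3) +
      (1/2 + (0) * tc) * opA wPl s ((a + 1, b + 1), 2) +
      (-1/2 + (0) * tc) * opA wPl s ((a + 1, b + 1), 3) := by
  simp only [opA_0, opA_1, opA_2, opA_3, opp_0, opp_1, opp_2, opp_3, wPl, add_sub_cancel_right,
    sub_add_cancel]
  linear_combination ((-1/2) * s ((a + 1, b - 1), 2) +
    (1/2) * s ((a, b), 3) +
    (-1) * s ((a, b + 1), 3) +
    (-1) * s ((a - 1, b), 0) +
    (1) * s ((a, b - 1), 1) +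
    (1/2) * s ((a + 1, b + 1), 2) +
    (-1/2) * s ((a, b), 1) +
    (1/2) * s ((a + 1, b + 1), 3) +
    (1) * s ((a, b), 0) +
    (-1/2) * s ((a + 1, b - 1), 1)) * tc_sq

theorem lap_eq_1 (s : Fn) (a b : ℤ) :
    s ((a + 1, b), 1) + s ((a - 1, b), 1) + s ((a, b + 1), 1) + s ((a, b - 1), 1) - 4 * s ((a, b), 1) =
      (1 + (1/2) * tc) * opA wPl s ((a - 1, b), 0) +
      (-1 + (-1/2) * tc) * opA wPl s ((a - 1, b), 1) +
      (1/2 + (0) * tc) * opA wPl s ((a - 1, b + 1), 0) +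
      (1/2 + (0) * tc) * opA wPl s ((a - 1, b + 1), 3) +
      (-5/2 + (-1) * tc) * opA wPl s ((a, b), 0) +
      (5/2 + (1) * tc) * opA wPl s ((a, b), 2) +
      (-2 + (-1) * tc) * opA wPl s ((a, b), 3) +
      (1 + (1/2) * tc) * opA wPl s ((a, b + 1), 0) +
      (-1 + (-1/2) * tc) * opA wPl s ((a, b + 1), 2) +
      (1 + (1) * tc) * opA wPl s ((a, b + 1), 3) +
      (1 + (1/2) * tc) * opA wPl s ((a + 1, b), 1) +
      (-1 + (-1/2) * tc) * opA wPl s ((a + 1, b), 2) +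
      (-1/2 + (0) * tc) * opA wPl s ((a + 1, b + 1), 2) +
      (1/2 + (0) * tc) * opA wPl s ((a + 1, b + 1), 3) := by
  simp only [opA_0, opA_1, opA_2, opA_3, opp_0, opp_1, opp_2, opp_3, wPl, add_sub_cancel_right,
    sub_add_cancel]
  linear_combination ((-1/2) * s ((a, b), 2) +
    (1/2) * s ((a - 1, b + 1), 3) +
    (1) * s ((a + 1, b), 2) +
    (1) * s ((a - 1, b), 0) +
    (-1) * s ((a, b - 1), 1) +
    (-1/2) * s ((a + 1, b + 1), 2) +
    (-1/2) * s ((a - 1, b + 1), 0) +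
    (1) * s ((a, b), 1) +
    (-1/2) * s ((a + 1, b + 1), 3) +
    (-1/2) * s ((a, b), 0)) * tc_sq

theorem lap_eq_2 (s : Fn) (a b : ℤ) :
    s ((a + 1, b), 2) + s ((a - 1, b), 2) + s ((a, b + 1), 2) + s ((a, b - 1), 2) - 4 * s ((a, b), 2) =
      (-1/2 + (0) * tc) * opA wPl s ((a - 1, b - 1), 0) +
      (1/2 + (0) * tc) * opA wPl s ((a - 1, b - 1), 1) +
      (-1 + (-1) * tc) * opA wPl s ((a - 1, b), 0) +
      (1 + (1/2) * tc) * opA wPl s ((a - 1, b), 1) +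
      (-1 + (-1/2) * tc) * opA wPl s ((a - 1, b), 3) +
      (-1/2 + (0) * tc) * opA wPl s ((a - 1, b + 1), 0) +
      (-1/2 + (0) * tc) * opA wPl s ((a - 1, b + 1), 3) +
      (1 + (1/2) * tc) * opA wPl s ((a, b - 1), 1) +
      (-1 + (-1/2) * tc) * opA wPl s ((a, b - 1), 2) +
      (2 + (1) * tc) * opA wPl s ((a, b), 0) +
      (-5/2 + (-1) * tc) * opA wPl s ((a, b), 1) +
      (5/2 + (1) * tc) * opA wPl s ((a, b), 3) +
      (1 + (1/2) * tc) * opA wPl s ((a, b + 1), 2) +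
      (-1 + (-1/2) * tc) * opA wPl s ((a, b + 1), 3) := by
  simp only [opA_0, opA_1, opA_2, opA_3, opp_0, opp_1, opp_2, opp_3, wPl, add_sub_cancel_right,
    sub_add_cancel]
  linear_combination ((1) * s ((a, b), 2) +
    (-1/2) * s ((a - 1, b + 1), 3) +
    (-1/2) * s ((a - 1, b - 1), 1) +
    (-1/2) * s ((a, b), 3) +
    (-1/2) * s ((a - 1, b - 1), 0) +
    (-1) * s ((a + 1, b), 2) +
    (1) * s ((a, b + 1), 3) +
    (1) * s ((a, b - 1), 1) +
    (1/2) * s ((a - 1, b + 1), 0) +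
    (-1/2) * s ((a, b), 1)) * tc_sq

theorem lap_eq_3 (s : Fn) (a b : ℤ) :
    s ((a + 1, b), 3) + s ((a - 1, b), 3) + s ((a, b + 1), 3) + s ((a, b - 1), 3) - 4 * s ((a, b), 3) =
      (1/2 + (0) * tc) * opA wPl s ((a - 1, b - 1), 0) +
      (-1/2 + (0) * tc) * opA wPl s ((a - 1, b - 1), 1) +
      (1 + (1/2) * tc) * opA wPl s ((a - 1, b), 0) +
      (1 + (1/2) * tc) * opA wPl s ((a - 1, b), 3) +
      (1 + (1/2) * tc) * opA wPl s ((a, b - 1), 0) +
      (-1 + (-1) * tc) * opA wPl s ((a, b - 1), 1) +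
      (1 + (1/2) * tc) * opA wPl s ((a, b - 1), 2) +
      (-5/2 + (-1) * tc) * opA wPl s ((a, b), 0) +
      (2 + (1) * tc) * opA wPl s ((a, b), 1) +
      (-5/2 + (-1) * tc) * opA wPl s ((a, b), 2) +
      (-1/2 + (0) * tc) * opA wPl s ((a + 1, b - 1), 1) +
      (1/2 + (0) * tc) * opA wPl s ((a + 1, b - 1), 2) +
      (1 + (1/2) * tc) * opA wPl s ((a + 1, b), 2) +
      (-1 + (-1/2) * tc) * opA wPl s ((a + 1, b), 3) := by
  simp only [opA_0, opA_1, opA_2, opA_3, opp_0, opp_1, opp_2, opp_3, wPl, add_sub_cancel_right,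
    sub_add_cancel]
  linear_combination ((-1/2) * s ((a, b), 2) +
    (1/2) * s ((a - 1, b - 1), 1) +
    (-1/2) * s ((a + 1, b - 1), 2) +
    (1) * s ((a, b), 3) +
    (1/2) * s ((a - 1, b - 1), 0) +
    (1) * s ((a + 1, b), 2) +
    (-1) * s ((a, b + 1), 3) +
    (-1) * s ((a - 1, b), 0) +
    (1/2) * s ((a, b), 0) +
    (-1/2) * s ((a + 1, b - 1), 1)) * tc_sq

/-- every component of a bulk solution is discrete harmonic (`adj Â · Â = c Δ`) -/
theorem harm_of_sol {s : Fn} {x : Site} (h : SolOn wPl (box x 2) s) (α : Fin 4) :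
    s (x + (1, 0), α) + s (x - (1, 0), α) + s (x + (0, 1), α) + s (x - (0, 1), α) = 4 * s (x, α) := by
  obtain ⟨a, b⟩ := x
  have h' : ∀ c d β, a - 2 ≤ c → c ≤ a + 2 → b - 2 ≤ d → d ≤ b + 2 → opA wPl s ((c, d), β) = 0 :=
    fun c d β h1 h2 h3 h4 => h _ (Finset.mem_coe.2 (b1_mem_box.2 ⟨⟨h1, h2⟩, h3, h4⟩)) β
  simp only [Prod.mk_add_mk, Prod.mk_sub_mk, add_zero, sub_zero]
  rw [← sub_eq_zero]
  induction α using b1_fin4
  · rw [lap_eq_0]; simp (disch := omega) only [h', mul_zero, add_zero]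
  · rw [lap_eq_1]; simp (disch := omega) only [h', mul_zero, add_zero]
  · rw [lap_eq_2]; simp (disch := omega) only [h', mul_zero, add_zero]
  · rw [lap_eq_3]; simp (disch := omega) only [h', mul_zero, add_zero]

end Crest.Agent.R165
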